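import Vale.Agent.P227.Local.PinchMain

/-!
The local logarithmic Brunn-Minkowski inequality, with no symmetry beyond the origin, at smooth
bodies pinched between two close homothetic ellipsoids.
-/

namespace Vale.Agent.Results.P227.LocalPinched

open MeasureTheory Set Filter Topology
open scoped RealInnerProductSpace

/-- The Wulff body of a function on the unit sphere. -/
def wulffBody {n : ℕ} (f : EuclideanSpace ℝ (Fin n) → ℝ) : Set (EuclideanSpace ℝ (Fin n)) :=
  {x | ∀ u ∈ Metric.sphere (0 : EuclideanSpace ℝ (Fin n)) 1, ⟪x, u⟫ ≤ f u}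

/-- Even, positively homogeneous of degree one and `C^2` away from the origin. -/
def EvenHomC2 {n : ℕ} (f : EuclideanSpace ℝ (Fin n) → ℝ) : Prop :=
  ContDiffOn ℝ 2 f {0}ᶜ ∧ (∀ r : ℝ, 0 < r → ∀ u, f (r • u) = r * f u) ∧ ∀ u, f (-u) = f u

/-- The support function of an origin-symmetric body of class `C^2_+`: positive, and with second
derivative positive definite on the orthogonal complement of each unit vector. -/
def SupportC2Plus {n : ℕ} (h : EuclideanSpace ℝ (Fin n) → ℝ) : Prop :=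
  EvenHomC2 h ∧ (∀ u, ‖u‖ = 1 → 0 < h u) ∧
    ∀ u v, ‖u‖ = 1 → ‖v‖ = 1 → ⟪u, v⟫ = 0 → 0 < fderiv ℝ (fderiv ℝ h) u v v

/-- If `r ‖T u‖ ≤ h u ≤ R ‖T u‖` with `(R/r)^2 ≤ 1 + 2/(n(n+3))`, the local logarithmic
Brunn-Minkowski inequality holds at the body of `h` against every even `C^2` perturbation. -/
theorem result :
    ∀ (n : ℕ) (h g : EuclideanSpace ℝ (Fin n) → ℝ)
      (T : EuclideanSpace ℝ (Fin n) ≃L[ℝ] EuclideanSpace ℝ (Fin n)) (r R a ε : ℝ),
      SupportC2Plus h → EvenHomC2 g → 0 < r →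
      (∀ u, r * ‖T u‖ ≤ h u ∧ h u ≤ R * ‖T u‖) →
      (n : ℝ) * (n + 3) * R ^ 2 ≤ (n + 1) * (n + 2) * r ^ 2 →
      a ∈ Icc (0 : ℝ) 1 → 0 < ε →
      ∀ᶠ t in 𝓝 (0 : ℝ),
        volume.real (wulffBody h) ^ (1 - a)
            * volume.real (wulffBody fun u => h u + t * g u) ^ a
          ≤ volume.real (wulffBody fun u => h u ^ (1 - a) * (h u + t * g u) ^ a) + ε * t ^ 2 := by
  intro n h g T r R a ε ⟨⟨hc, hh, heh⟩, hpos, hcurv⟩ ⟨gc, gh, heg⟩ hr hb hpinch ha hε
  unfold wulffBody
  obtain _ | m := n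
  · have hv : ∀ f : EuclideanSpace ℝ (Fin 0) → ℝ, {x : EuclideanSpace ℝ (Fin 0) |
        ∀ u ∈ Metric.sphere (0 : EuclideanSpace ℝ (Fin 0)) 1, ⟪x, u⟫ ≤ f u} = univ := fun f =>
      eq_univ_of_forall fun x u hu => by
        simp [Subsingleton.elim u 0] at hu
    simp only [hv]
    refine Eventually.of_forall fun t => ?_
    rcases (measureReal_nonneg (μ := volume) (s := (univ : Set (EuclideanSpace ℝ (Fin 0))))).eq_or_lt
      with e | e
    · rw [← e]
      rcases eq_or_ne a 0 with rfl | ha0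
      · simp only [sub_zero, Real.rpow_one, zero_mul, zero_add]; positivity
      · simp only [Real.zero_rpow ha0, mul_zero, zero_add]; positivity
    · rw [← Real.rpow_add e, sub_add_cancel, Real.rpow_one]
      exact le_add_of_nonneg_right (mul_nonneg hε.le (sq_nonneg t))
  suffices hgood : Vale.Agent.P227.Local.Good h from
    Vale.Agent.P227.Local.local_of_form hgood ⟨gc, gh⟩
      (Vale.Agent.P227.Local.Pinch.form_nonpos_pinched hgood heh ⟨gc, gh⟩ heg T hr
        (fun u => (hb u).1) (fun u => (hb u).2) hpinch) ha hε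
  refine ⟨⟨hc, hh⟩, hpos, fun u v hu hv huv => ?_⟩
  have h2 := hcurv u v hu hv huv
  have hu0 : u ≠ 0 := fun e => by simp [e] at hu
  have e : Vale.Agent.P227.Local.hess h u v
      = (InnerProductSpace.toDual ℝ (EuclideanSpace ℝ (Fin (m + 1)))).symm
          (fderiv ℝ (fderiv ℝ h) u v) := by
    have hd : DifferentiableAt ℝ (fderiv ℝ h) u :=
      ((hc.fderiv_of_isOpen isOpen_compl_singleton (m := 1) (by norm_num)).contDiffAt
        (isOpen_compl_singleton.mem_nhds hu0)).differentiableAt (by norm_num)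
    exact DFunLike.congr_fun (((InnerProductSpace.toDual ℝ
      (EuclideanSpace ℝ (Fin (m + 1)))).symm.toContinuousLinearEquiv.hasFDerivAt.comp u
        hd.hasFDerivAt).fderiv) v
  rw [e, InnerProductSpace.toDual_symm_apply]
  exact h2

end Vale.Agent.Results.P227.LocalPinched
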