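import Vale.Agent.P227.Local.Main

/-!
The local logarithmic Brunn-Minkowski inequality at smooth bodies with all but two commuting
linear reflections, against arbitrary even perturbations, in every dimension.
-/

namespace Vale.Agent.Results.P227.LocalReflections

open MeasureTheory Set Filter Topology
open scoped RealInnerProductSpace

/-- The Wulff body of a function on the unit sphere. -/
def wulffBody {n : ℕ} (f : EuclideanSpace ℝ (Fin n) → ℝ) : Set (EuclideanSpace ℝ (Fin n)) :=
  {x | ∀ u ∈ Metric.sphere (0 : EuclideanSpace ℝ (Fin n)) 1, ⟪x, u⟫ ≤ f u}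

/-- Even, positively homogeneous of degree one and `C^2` away from the origin. -/
def EvenHomC2 {n : ℕ} (f : EuclideanSpace ℝ (Fin n) → ℝ) : Prop :=
  ContDiffOn ℝ 2 f {0}ᶜ ∧ (∀ r : ℝ, 0 < r → ∀ u, f (r • u) = r * f u) ∧ ∀ u, f (-u) = f u

/-- The support function of an origin-symmetric body of class `C^2_+`: positive, and with second
derivative positive definite on the orthogonal complement of each unit vector. -/
def SupportC2Plus {n : ℕ} (h : EuclideanSpace ℝ (Fin n) → ℝ) : Prop :=
  EvenHomC2 h ∧ (∀ u, ‖u‖ = 1 → 0 < h u) ∧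
    ∀ u v, ‖u‖ = 1 → ‖v‖ = 1 → ⟪u, v⟫ = 0 → 0 < fderiv ℝ (fderiv ℝ h) u v v

/-- For a `C^2` support function with positive curvature, invariant under `n - 2` commuting
linear reflections (none for `n ≤ 2`), and every even `C^2` perturbation, the local logarithmic
Brunn-Minkowski inequality holds to second order. -/
theorem result :
    ∀ (n : ℕ) (h g : EuclideanSpace ℝ (Fin n) → ℝ)
      (B : EuclideanSpace ℝ (Fin n) ≃ₗ[ℝ] (Fin n → ℝ)) (a ε : ℝ),
      SupportC2Plus h →
      (∀ i : Fin n, (i : ℕ) + 2 < n →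
        ∀ u, h (B.symm (Function.update (B u) i (-(B u i)))) = h u) →
      EvenHomC2 g → a ∈ Icc (0 : ℝ) 1 → 0 < ε →
      ∀ᶠ t in 𝓝 (0 : ℝ),
        volume.real (wulffBody h) ^ (1 - a)
            * volume.real (wulffBody fun u => h u + t * g u) ^ a
          ≤ volume.real (wulffBody fun u => h u ^ (1 - a) * (h u + t * g u) ^ a) + ε * t ^ 2 := by
  intro n h g B a ε ⟨⟨hc, hh, heh⟩, hpos, hcurv⟩ hinv ⟨gc, gh, heg⟩ ha hε
  unfold wulffBody
  obtain _ | m := n
  · have hv : ∀ f : EuclideanSpace ℝ (Fin 0) → ℝ, {x : EuclideanSpace ℝ (Fin 0) |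
        ∀ u ∈ Metric.sphere (0 : EuclideanSpace ℝ (Fin 0)) 1, ⟪x, u⟫ ≤ f u} = univ := fun f =>
      eq_univ_of_forall fun x u hu => by
        simp [Subsingleton.elim u 0] at hu
    simp only [hv]
    refine Eventually.of_forall fun t => ?_
    rcases (measureReal_nonneg (μ := volume) (s := (univ : Set (EuclideanSpace ℝ (Fin 0))))).eq_or_lt
      with e | e
    · rw [← e]
      rcases eq_or_ne a 0 with rfl | ha0
      · simp only [sub_zero, Real.rpow_one, zero_mul, zero_add]; positivity
      · simp only [Real.zero_rpow ha0, mul_zero, zero_add]; positivity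
    · rw [← Real.rpow_add e, sub_add_cancel, Real.rpow_one]
      exact le_add_of_nonneg_right (mul_nonneg hε.le (sq_nonneg t))
  refine Vale.Agent.P227.Local.local_log_bm ⟨⟨hc, hh⟩, hpos, fun u v hu hv huv => ?_⟩ heh hinv
    ⟨gc, gh⟩ heg ha hε
  have h2 := hcurv u v hu hv huv
  have hu0 : u ≠ 0 := fun e => by simp [e] at hu
  have e : Vale.Agent.P227.Local.hess h u v
      = (InnerProductSpace.toDual ℝ (EuclideanSpace ℝ (Fin (m + 1)))).symm
          (fderiv ℝ (fderiv ℝ h) u v) := by
    have hd : DifferentiableAt ℝ (fderiv ℝ h) u :=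
      ((hc.fderiv_of_isOpen isOpen_compl_singleton (m := 1) (by norm_num)).contDiffAt
        (isOpen_compl_singleton.mem_nhds hu0)).differentiableAt (by norm_num)
    exact DFunLike.congr_fun (((InnerProductSpace.toDual ℝ
      (EuclideanSpace ℝ (Fin (m + 1)))).symm.toContinuousLinearEquiv.hasFDerivAt.comp u
        hd.hasFDerivAt).fderiv) v
  rw [e, InnerProductSpace.toDual_symm_apply]
  exact h2

end Vale.Agent.Results.P227.LocalReflections
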