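import Vale.Agent.P227.Sym.Transfer

/-!
The logarithmic Brunn-Minkowski inequality for pairs with all but two common linear reflections.
-/

namespace Vale.Agent.Results.P227.PlanarSymmetry

open MeasureTheory Set
open scoped RealInnerProductSpace

/-- For origin-symmetric convex compact sets invariant under `n - 2` common linear reflections
(in some linear coordinates, the sign changes of all coordinates but the last two), the
logarithmic Brunn-Minkowski inequality holds. For `n = 2` there is no symmetry hypothesis. -/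
theorem result :
    ∀ (n : ℕ) (K L : Set (EuclideanSpace ℝ (Fin n))) (a : ℝ)
      (A : EuclideanSpace ℝ (Fin n) ≃ₗ[ℝ] (Fin n → ℝ)),
      IsCompact K → Convex ℝ K → (∀ x ∈ K, -x ∈ K) →
      IsCompact L → Convex ℝ L → (∀ x ∈ L, -x ∈ L) → a ∈ Icc (0 : ℝ) 1 →
      (∀ i : Fin n, (i : ℕ) + 2 < n →
        (∀ x ∈ K, A.symm (Function.update (A x) i (-(A x i))) ∈ K) ∧
        (∀ x ∈ L, A.symm (Function.update (A x) i (-(A x i))) ∈ L)) →
      volume.real K ^ (1 - a) * volume.real L ^ a ≤ volume.real
        {x : EuclideanSpace ℝ (Fin n) | ∀ u ∈ Metric.sphere (0 : EuclideanSpace ℝ (Fin n)) 1,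
          ⟪x, u⟫ ≤ sSup ((fun y => ⟪y, u⟫) '' K) ^ (1 - a)
            * sSup ((fun y => ⟪y, u⟫) '' L) ^ a} :=
  fun _ _ _ _ A hK hKc hKs hL hLc hLs ha hr =>
    Vale.Agent.P227.Sym.euclidean hK hKc hKs hL hLc hLs ha A hr

end Vale.Agent.Results.P227.PlanarSymmetry
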