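import Vale.Agent.P227.Main

/-!
The logarithmic Brunn-Minkowski inequality for pairs whose logarithmic combination is a zonoid,
and the logarithmic Minkowski inequality at zonotopes against all symmetric bodies.
-/

namespace Vale.Agent.Results.P227.ZonoidCombination

open MeasureTheory Set
open scoped RealInnerProductSpace

/-- Two parts: the logarithmic Brunn-Minkowski inequality when the combination is a zonoid, and
the logarithmic Minkowski inequality of an arbitrary symmetric body relative to a zonotope. -/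
theorem result :
    (∀ (n : ℕ) (K L : Set (EuclideanSpace ℝ (Fin n))) (a : ℝ),
      IsCompact K → (interior K).Nonempty → (∀ x ∈ K, -x ∈ K) →
      IsCompact L → (interior L).Nonempty → (∀ x ∈ L, -x ∈ L) → a ∈ Icc (0 : ℝ) 1 →
      ∀ (ρ : Measure (EuclideanSpace ℝ (Fin n))) (R : ℝ), IsFiniteMeasure ρ →
        (∀ᵐ v ∂ρ, ‖v‖ ≤ R) →
        {x : EuclideanSpace ℝ (Fin n) | ∀ u ∈ Metric.sphere (0 : EuclideanSpace ℝ (Fin n)) 1,
            ⟪x, u⟫ ≤ sSup ((fun y => ⟪y, u⟫) '' K) ^ (1 - a) * sSup ((fun y => ⟪y, u⟫) '' L) ^ a}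
          = {x : EuclideanSpace ℝ (Fin n) | ∀ u ∈ Metric.sphere (0 : EuclideanSpace ℝ (Fin n)) 1,
            ⟪x, u⟫ ≤ ∫ v, |⟪v, u⟫| ∂ρ} →
        volume.real K ^ (1 - a) * volume.real L ^ a
          ≤ volume.real {x : EuclideanSpace ℝ (Fin n) |
              ∀ u ∈ Metric.sphere (0 : EuclideanSpace ℝ (Fin n)) 1,
              ⟪x, u⟫ ≤ sSup ((fun y => ⟪y, u⟫) '' K) ^ (1 - a)
                * sSup ((fun y => ⟪y, u⟫) '' L) ^ a}) ∧
    (∀ (n m : ℕ) (s : Fin m → EuclideanSpace ℝ (Fin n)) (L : Set (EuclideanSpace ℝ (Fin n)))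
      (b : (Fin n → Fin m) → Fin n → EuclideanSpace ℝ (Fin n)),
      IsCompact L → (interior L).Nonempty → (∀ x ∈ L, -x ∈ L) →
      (∃ S : Fin n → Fin m, (Matrix.of fun i c => s (S i) c).det ≠ 0) →
      (∀ S : Fin n → Fin m, (Matrix.of fun i c => s (S i) c).det ≠ 0 →
        ∀ k j, ⟪s (S k), b S j⟫ = if k = j then 1 else 0) →
      Real.log (volume.real L)
        ≤ Real.log (volume.real {x : EuclideanSpace ℝ (Fin n) |
            ∀ u, ⟪x, u⟫ ≤ ∑ i, |⟪s i, u⟫|})
          + (∑ S : Fin n → Fin m, |(Matrix.of fun i c => s (S i) c).det|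
              * ∑ j, Real.log (sSup ((fun y => ⟪y, b S j⟫) '' L) / ∑ i, |⟪s i, b S j⟫|))
            / ∑ S : Fin n → Fin m, |(Matrix.of fun i c => s (S i) c).det|) := by
  refine ⟨?_, ?_⟩
  · intro n K L a hK hKi hKs hL hLi hLs ha ρ R hρ hR hEq
    exact Vale.Agent.P227.log_brunn_minkowski hK hKi hKs hL hLi hLs ha ρ hR hEq
  · intro n m s L b hL hLi hLs hdet hdual
    obtain ⟨S0, hS0⟩ := hdet
    have hD : 0 < ∑ S : Fin n → Fin m, |Vale.Agent.P227.dt (s ∘ S)| :=
      Finset.sum_pos' (fun S _ => abs_nonneg _) ⟨S0, Finset.mem_univ S0, abs_pos.2 hS0⟩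
    refine (Vale.Agent.P227.log_minkowski hL hLi hLs s hD).trans (le_of_eq ?_)
    congr 2
    refine Finset.sum_congr rfl fun S _ => ?_
    by_cases hS : Vale.Agent.P227.dt (s ∘ S) = 0
    · rw [hS, show (Matrix.of fun i c => s (S i) c).det = 0 from hS, abs_zero, zero_mul, zero_mul]
    · have hb : ∀ j, b S j = Vale.Agent.P227.dual (s ∘ S) j := fun j => by
        refine sub_eq_zero.1 (Vale.Agent.P227.eq_zero_of_inner_eq_zero hS fun k => ?_)
        rw [inner_sub_right, Vale.Agent.P227.inner_dual _ hS, Function.comp_apply,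
          hdual S hS k j, sub_self]
      simp only [hb]
      rfl

end Vale.Agent.Results.P227.ZonoidCombination
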